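/-
S0170 team project, work package C3 (helper38): a step can be undone (`step_symm`, exactly the
statement of the project spec), and the whole path of elementary moves exists given parking (C1)
and reshaping (C2), which are taken as hypotheses with exactly the spec statements
(`path_exists_of`).  No sorry, does not depend on the spec file.
-/
import Crest.Agent.Helper21.BoxFlow.Defs

set_option autoImplicit false
open scoped ContDiff
open Crest.AnalysisR.BoxFlow Crest.Agent.Helper21

namespace Crest.Agent.Helper38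

/-- `affFun` after a shear along `d` (with `w d = 0`) is unchanged. -/
theorem affFun_shearMap (d : Fin 3) (α β : ℚ) (w v : Fin 3 → ℚ) (hv : v d = 0) (x : Sp) :
    affFun β v (shearMap d α w x) = affFun β v x := by
  unfold affFun shearMap
  congr 1
  apply Finset.sum_congr rfl
  intro j _
  by_cases hj : j = d
  · subst hj
    simp [hv]
  · simp [hj]

/-- The inverse of a shear-translation. -/
theorem shearMap_neg_shearMap (d : Fin 3) (α : ℚ) (w : Fin 3 → ℚ) (hw : w d = 0) (x : Sp) :
    shearMap d (-α) (-w) (shearMap d α w x) = x := by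
  have h1 : affFun (-α) (-w) (shearMap d α w x) = affFun (-α) (-w) x :=
    affFun_shearMap d α (-α) w (-w) (by simp [hw]) x
  have h2 : affFun (-α) (-w) x = - affFun α w x := by
    unfold affFun
    simp only [Pi.neg_apply, Rat.cast_neg, neg_mul, Finset.sum_neg_distrib]
    ring
  have h3 : shearMap d (-α) (-w) (shearMap d α w x) =
      shearMap d α w x + affFun (-α) (-w) (shearMap d α w x) • (Pi.single d (1 : ℝ) : Sp) := rfl
  rw [h3, h1, h2]
  unfold shearMap
  rw [neg_smul]
  abel

/-- Reversal of a path for a symmetric relation. -/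
theorem reflTransGen_reverse {β : Type*} {r : β → β → Prop} (hr : ∀ x y, r x y → r y x)
    {x y : β} (hxy : Relation.ReflTransGen r x y) : Relation.ReflTransGen r y x := by
  induction hxy with
  | refl => exact Relation.ReflTransGen.refl
  | tail _ hbc ih => exact Relation.ReflTransGen.head (hr _ _ hbc) ih

/-- C3: a step can be undone. -/
theorem step_symm {n : ℕ} (a h : Fin n → Fin 3 → ℚ) (C C' : Config n) (hS : Step a h C C') :
    Step a h C' C := by
  obtain ⟨i, d, α, w, lo, hi, m, hw, hlh, hm, hin, hout, rfl⟩ := hS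
  refine ⟨i, d, -α, -w, lo, hi, m, by simp [hw], hlh, hm, ?_, ?_, ?_⟩
  · intro x hx
    simp only [Function.update_self]
    rw [shearMap_neg_shearMap d α w hw]
    exact ⟨(hin x hx).2, (hin x hx).1⟩
  · intro j hj x hx
    rw [Function.update_of_ne hj]
    exact hout j hj x hx
  · funext j
    by_cases hj : j = i
    · subst hj
      simp only [Function.update_self]
      funext x
      rw [shearMap_neg_shearMap d α w hw]
    · rw [Function.update_of_ne hj, Function.update_of_ne hj]

theorem targetMap_mem_box {n : ℕ} (a b h k : Fin n → Fin 3 → ℚ)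
    (hh : ∀ i j, 0 < h i j) (hk : ∀ i j, 0 < k i j) (i : Fin n) (x : Sp)
    (hx : x ∈ box (a i) (h i)) : targetMap a b h k i x ∈ box (b i) (k i) := by
  intro j
  have hxj := hx j
  have hhj : (0 : ℝ) < (h i j : ℝ) := by exact_mod_cast hh i j
  have hkj : (0 : ℝ) < (k i j : ℝ) := by exact_mod_cast hk i j
  unfold targetMap
  simp only [add_sub_cancel_left, Rat.cast_div]
  rw [abs_mul, abs_of_pos (div_pos hkj hhj)]
  calc (k i j : ℝ) / (h i j : ℝ) * |x j - (a i j : ℝ)|
      ≤ (k i j : ℝ) / (h i j : ℝ) * (h i j : ℝ) :=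
        mul_le_mul_of_nonneg_left hxj (div_pos hkj hhj).le
    _ = (k i j : ℝ) := by field_simp

/-- C3: the whole path (from parking C1 and reshaping C2, taken as hypotheses). -/
theorem path_exists_of {n : ℕ} (a h : Fin n → Fin 3 → ℚ)
    (parking : ∀ (C : Config n) (c e : Fin n → Fin 3 → ℚ), (∀ i j, 0 < e i j) →
      (Pairwise fun i i' => Disjoint (box (c i) (e i)) (box (c i') (e i'))) →
      (∀ i, ∀ x ∈ box (a i) (h i), C i x ∈ box (c i) (e i)) →
      ∃ R₀ : ℚ, ∀ R : ℚ, R₀ ≤ R →
        Relation.ReflTransGen (Step a h) C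
          (fun i x => C i x + ratPoint (fun j => parkPos R i j - c i j)))
    (reshape : ∀ (k : Fin n → Fin 3 → ℚ), (∀ i j, 0 < h i j) → (∀ i j, 0 < k i j) →
      (∀ i, ∏ j : Fin 3, k i j / h i j = 1) →
      ∃ R₀ : ℚ, ∀ R : ℚ, R₀ ≤ R →
        Relation.ReflTransGen (Step a h)
          (fun i x => x + ratPoint (fun j => parkPos R i j - a i j))
          (fun i x j => (parkPos R i j : ℝ) + ((k i j / h i j : ℚ) : ℝ) * (x j - (a i j : ℝ))))
    (b k : Fin n → Fin 3 → ℚ)
    (hh : ∀ i j, 0 < h i j) (hk : ∀ i j, 0 < k i j)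
    (ha : Pairwise fun i i' => Disjoint (box (a i) (h i)) (box (a i') (h i')))
    (hb : Pairwise fun i i' => Disjoint (box (b i) (k i)) (box (b i') (k i')))
    (hvol : ∀ i, ∏ j : Fin 3, k i j / h i j = 1) :
    Relation.ReflTransGen (Step a h) (fun _ => id) (targetMap a b h k) := by
  obtain ⟨R₁, h₁⟩ := parking (fun _ => id) a h hh ha (fun i x hx => hx)
  obtain ⟨R₂, h₂⟩ := reshape k hh hk hvol
  obtain ⟨R₃, h₃⟩ := parking (targetMap a b h k) b k hk hb
    (fun i x hx => targetMap_mem_box a b h k hh hk i x hx)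
  set R : ℚ := max R₁ (max R₂ R₃) with hR
  have hR₁ : R₁ ≤ R := le_max_left _ _
  have hR₂ : R₂ ≤ R := le_trans (le_max_left _ _) (le_max_right _ _)
  have hR₃ : R₃ ≤ R := le_trans (le_max_right _ _) (le_max_right _ _)
  have p₁ := h₁ R hR₁
  have p₂ := h₂ R hR₂
  have p₃ := h₃ R hR₃
  have p₃' := reflTransGen_reverse (fun C C' hS => step_symm a h C C' hS) p₃
  have e₁ : (fun (i : Fin n) (x : Sp) => (fun _ => id : Config n) i x +
      ratPoint (fun j => parkPos R i j - a i j)) =
      (fun i x => x + ratPoint (fun j => parkPos R i j - a i j)) := rfl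
  have e₃ : (fun (i : Fin n) (x : Sp) => targetMap a b h k i x +
      ratPoint (fun j => parkPos R i j - b i j)) =
      (fun i x j => (parkPos R i j : ℝ) + ((k i j / h i j : ℚ) : ℝ) * (x j - (a i j : ℝ))) := by
    funext i x j
    simp only [targetMap, ratPoint, Pi.add_apply, Rat.cast_sub]
    ring
  rw [e₁] at p₁
  rw [e₃] at p₃'
  exact (p₁.trans p₂).trans p₃'

end Crest.Agent.Helper38
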